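import Crest.Agent.R110S.BasicCfcA
import Crest.Agent.R110S.BasicCfcB
import Crest.Agent.R110S.BasicCfcC
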