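import Crest.Agent.R110S.Compare

/-!
# R110 piece Proj: if `(g-s)₊ ∈ ideal((g-t)₊)`, `s < t`, the ideal is generated by a projection

`k = ramp s s₁ g` (`s < s₁ < t`), `Dom k (cut s g)` so `Dom k (cut t g)`.  `compare` (x = k, y = cut t g, error
`κ = 1/16`): `r₁, r₂`; `x_i = (g-t)₊^{1/2} r_i = rcut t g * r_i`; `‖x_i⋆ x_i - k‖ < κ`, `‖x₁⋆ x₂‖ < κ`,
`k x_i = x_i` (`ramp_mul_rcut`), so `(1-k)^{1/2} x_i = 0`  (`(1-k)^{1/2}` = `cfc (√(1 - ramp r)) g`).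
`v = x₁ + (1-k)^{1/2}`, `v⋆v = x₁⋆x₁ + (1 - k)`, `‖v⋆v - 1‖ < κ`, so `v⋆v` is invertible,
`p = 1 - v (v⋆v)⁻¹ v⋆` is a selfadjoint idempotent.
`p ∈ I`: `v = 1 + j`, `j ∈ I` (`√(1-ramp)-1` vanishes at 0); `(v⋆v)⁻¹ = 1 - m`, `m ∈ I`.
`Dom p g`: `π g = 0` ⟹ `π k = 0`, `π x₁ = 0`, `π v = 1`, `π p = 0`.
`Dom (cut s₁ g) p`: if `π p = 0` then `1 = π(v (v⋆v)⁻¹ v⋆)`, so
`π x₂⋆ = π(x₂⋆ v (v⋆v)⁻¹ v⋆)`, `x₂⋆ v = x₂⋆ x₁` has norm `< κ`, `‖(v⋆v)⁻¹ v⋆‖ ≤ 2`; `‖π x₂‖ ≤ 2κ`,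
`‖π k‖ ≤ 4κ² + κ < 1`, so `‖π g‖ < s₁` (`norm_lt_of_ramp`), `π (cut s₁ g) = 0`.
-/

set_option autoImplicit false

namespace Crest.Agent.R110S

universe u

variable {A : Type u} [CStarAlgebra A] [PartialOrder A] [StarOrderedRing A] {I : Set A}

theorem exists_proj (hI : PId A I) {g : A} (hg : 0 ≤ g) (hgI : g ∈ I) {s s₁ t : ℝ} (hs : 0 < s)
    (hs1 : s < s₁) (hst : s₁ < t) (h : Dom (cut s g) (cut t g)) :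
    ∃ p : A, IsSelfAdjoint p ∧ p * p = p ∧ p ∈ I ∧ Dom p g ∧ Dom (cut s₁ g) p := by
  sorry

end Crest.Agent.R110S
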