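import Crest.Agent.R110S.LemA
import Crest.Agent.R110S.Proj

/-!
# R110 piece CompD: the solution in the quotient `D`

`p` from `exists_proj`; `Dom p (d*d)` (`Dom p g`, `Dom g (d*d)`).  `compare` (x = p, y = d*d, error `κ`):
`‖r⋆ (d d) r - p‖ < κ`.  `c := z * d * r * p` (`c p = c`).  `lemA` for `(a', p, c)`, error `ε' ≤ ε`: `v, w'`.
`w := r * p * w'`:  `w⋆ (d d) w = w'⋆ p (r⋆ d d r) p w'`, within `κ ‖p w'‖²` of `w'⋆ p w'`, `‖p w'‖² = ‖w'⋆ p w'‖ ≤ ‖p‖ + ε' ≤ 2`.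
`v⋆ (a' z d) w = v⋆ a' (z d r p) w' = v⋆ a' c w'`.
-/

set_option autoImplicit false

namespace Crest.Agent.R110S

universe u

variable {A : Type u} [CStarAlgebra A] [PartialOrder A] [StarOrderedRing A] {I : Set A}

theorem compD (hI : PId A I) {a' d g z : A} (ha : 0 ≤ a') (haI : a' ∈ I) (ha1 : ‖a'‖ ≤ 1)
    (hd : 0 ≤ d) (hdI : d ∈ I) (hg : 0 ≤ g) (hgI : g ∈ I) {s s₁ t : ℝ} (hs : 0 < s) (hs1 : s < s₁)
    (hst : s₁ < t) (h1 : Dom (cut s g) (cut t g)) (h2 : Dom g (d * d)) {ε : ℝ} (hε : 0 < ε) :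
    ∃ v w p : A, Dom (cut s₁ g) p ∧ IsSelfAdjoint p ∧ p * p = p ∧
      ‖star v * (a' * a') * v - a' * a'‖ < ε ∧ ‖star w * (d * d) * w - p‖ < ε ∧
      ‖star v * (a' * z * d) * w‖ < ε := by
  sorry

end Crest.Agent.R110S
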