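import Crest.Agent.R110S.BasicDom
import Crest.Agent.R117.Quot

/-!
# R110 piece Ideal: the closed ideal generated by `y`, `Dom x y ↔ x ∈ gen y`, universal quotient (independent)

`gen_isIdl`, closedness: elementary (`closure` of the algebraic two-sided ideal; `star` because `y` is selfadjoint).
`dom_iff_mem_gen`: (→) `R117.exists_cstar_quotient (gen y)` gives `π : A → A/gen y` with kernel `gen y`, `π y = 0`.
(←) `π` is continuous and kills all finite sums.
`exists_quot`: same quotient; `ρ'` is defined by `ρ' (π x) = ρ x`: `π x = 0 → x ∈ gen y → ρ x = 0`; build the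
⋆-homomorphism with a section (`Function.surjInv`) and check the algebraic identities.
-/

set_option autoImplicit false

namespace Crest.Agent.R110S

universe u

variable {A : Type u} [CStarAlgebra A]

/-- closed two-sided ideal generated by `y`. -/
def gen (y : A) : Set A := closure {z : A | ∃ (n : ℕ) (r s : Fin n → A), z = ∑ k, r k * y * s k}

theorem isClosed_gen (y : A) : IsClosed (gen y) := isClosed_closure

theorem gen_isIdl {y : A} (hy : IsSelfAdjoint y) : Crest.Agent.R117.IsIdl (gen y) := by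
  sorry

theorem dom_iff_mem_gen {x y : A} (hy : IsSelfAdjoint y) : Dom x y ↔ x ∈ gen y := by
  sorry

theorem exists_quot {y : A} (hy : IsSelfAdjoint y) :
    ∃ (D : Type u) (_ : CStarAlgebra D) (π : A →⋆ₐ[ℂ] D), Function.Surjective π ∧
      (∀ x, π x = 0 ↔ Dom x y) ∧
      (∀ (x : A) (ε : ℝ), 0 < ε → ∃ j : A, Dom j y ∧ ‖x + j‖ < ‖π x‖ + ε) ∧
      (∀ (B : Type u) [CStarAlgebra B] (ρ : A →⋆ₐ[ℂ] B), ρ y = 0 →
        ∃ ρ' : D →⋆ₐ[ℂ] B, ∀ x, ρ' (π x) = ρ x) := by
  sorry

end Crest.Agent.R110S
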