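import Crest.Agent.R110S.BasicCfc
import Crest.Agent.R110S.Ideal

/-!
# R110 piece ExistsEU

`ρ₁ : A → B₁` the quotient by `y₁` (`exists_quot`).  In `B₁`: `Dom (ρ₁ q) (ρ₁ y₂)` (if `σ (ρ₁ y₂) = 0` then
`σ ρ₁ (y₁+y₂) = 0`), so `ρ₁ q ∈ gen (ρ₁ y₂)` (`dom_iff_mem_gen`): `‖ρ₁ q - ∑ ρ₁(r_k) ρ₁(y₂) ρ₁(s_k)‖ ≤ κ/2`
(lift the coefficients, `ρ₁` is surjective); `j = ∑ r_k y₂ s_k`, `e = eu θ (j j⋆)`, `θ = κ²/16`: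
`‖(1-e) j‖ = ‖j⋆ (1-e)‖ ≤ κ/4` (`norm_mul_one_sub_eu` with `y = j⋆`); `‖ρ₁((1-e) q)‖ ≤ κ/2 + κ/4`.
Any `π` killing `y₁` factors through `ρ₁`.
-/

set_option autoImplicit false

namespace Crest.Agent.R110S

universe u

variable {A : Type u} [CStarAlgebra A] [PartialOrder A] [StarOrderedRing A]

theorem exists_eU {q y₁ y₂ : A} (hq1 : ‖q‖ ≤ 1) (hy₁ : 0 ≤ y₁) (hy₂ : 0 ≤ y₂)
    (h : Dom q (y₁ + y₂)) {κ : ℝ} (hκ : 0 < κ) :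
    ∃ e : A, 0 ≤ e ∧ e ≤ 1 ∧ Dom e y₂ ∧
      ∀ (B : Type u) [CStarAlgebra B] (π : A →⋆ₐ[ℂ] B), π y₁ = 0 → ‖π ((1 - e) * q)‖ ≤ κ := by
  sorry

end Crest.Agent.R110S
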