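import Crest.Agent.R110S.QuotUnit
import Crest.Agent.R110S.ExistsEU
import Crest.Agent.R110S.PIdApi

/-!
# R110 piece CompV

Notation: `α = a*a`, `β = b*b`, `x₃ = ramp (3ε/8) (ε/2) α`, `a' = rcut (ε/2) α`, `q₀ = cut (5ε/8) α`, `d = rcut b₀ β`.

Piece `comp_V` (columns on the V side).  Given `ŷ := cut (1/4) (W_A)`, its quotient `π : A → D` and `v_D ∈ D` with
`‖v_D⋆ (a'a') v_D - a'a'‖ < ε/32` in `D`: there are `v₁ e' : A` such that `v̂ = a' v₁` has norm `≤ 3`, `π v̂ = π a' * v_D`,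
`0 ≤ e' ≤ 1`, `Dom e' ŷ`, and `V = v̂ v̂⋆ + (q₀ e')(q₀ e')⋆` covers: `Dom (cut ε α) (cut (ε²/256) V)`.
Proof: `v₀` a preimage of `v_D`, `f₁` from `quot_unit` for `a' v₀`, `v₁ = v₀ (1 - f₁)`.
`y₁ = cut (ε/32) (v̂ v̂⋆)`.  `Dom q₀ (y₁ + ŷ)`: `ρ` kills `y₁ + ŷ` (both positive) ⟹ kills both, `ρ = ρ' ∘ π`;
`‖ρ(v̂⋆v̂)‖ ≤ ε/32`, `v̂⋆v̂ ↦ ρ'(v_D⋆ a'a' v_D)`, so `‖ρ (cut (ε/2) α)‖ ≤ ε/32 + ε/32`, `‖ρ α‖ ≤ ε/2 + ε/16 ≤ 5ε/8`, `ρ q₀ = 0`.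
`e'` from `exists_eU` (q = q₀, y₁, y₂ = ŷ, `κ = ε²/1024`).  Coverage: `ρ` kills `cut (ε²/256) V`: `‖ρ V‖ ≤ ε²/256`
⟹ `‖ρ(v̂v̂⋆)‖ ≤ ε/32`, `ρ y₁ = 0`; `‖ρ(q₀ e' e' q₀)‖ ≤ ε²/256`;
`q₀ q₀ = q₀ (1-e') q₀ + q₀ e' (1-e') q₀ + q₀ e' e' q₀` ⟹ `‖ρ q₀‖² ≤ 2 ε²/1024 + ε²/256 ≤ ε²/128 ≤ (ε/8)²`…
`‖ρ α‖ ≤ 5ε/8 + ‖ρ q₀‖ ≤ ε`.

-/

set_option autoImplicit false

namespace Crest.Agent.R110S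

universe u

variable {A : Type u} [CStarAlgebra A] [PartialOrder A] [StarOrderedRing A] {I : Set A}

theorem comp_V {a ŷ : A} (ha : 0 ≤ a) (ha1 : ‖a‖ ≤ 1) (hy : 0 ≤ ŷ) {ε : ℝ} (hε : 0 < ε) (hε1 : ε ≤ 1)
    {D : Type u} [CStarAlgebra D] (π : A →⋆ₐ[ℂ] D) (hsurj : Function.Surjective π)
    (hker : ∀ x, π x = 0 ↔ Dom x ŷ)
    (hnorm : ∀ (x : A) (ε : ℝ), 0 < ε → ∃ j : A, Dom j ŷ ∧ ‖x + j‖ < ‖π x‖ + ε)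
    (huniv : ∀ (B : Type u) [CStarAlgebra B] (ρ : A →⋆ₐ[ℂ] B), ρ ŷ = 0 →
        ∃ ρ' : D →⋆ₐ[ℂ] B, ∀ x, ρ' (π x) = ρ x)
    (vD : D) (hv : ‖star vD * (π (rcut (ε / 2) (a * a)) * π (rcut (ε / 2) (a * a))) * vD -
      π (rcut (ε / 2) (a * a)) * π (rcut (ε / 2) (a * a))‖ < ε / 32) :
    ∃ v₁ e' : A, ‖rcut (ε / 2) (a * a) * v₁‖ ≤ 3 ∧ π v₁ = vD ∧ 0 ≤ e' ∧ e' ≤ 1 ∧ Dom e' ŷ ∧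
      Dom (cut ε (a * a)) (cut (ε ^ 2 / 256)
        (rcut (ε / 2) (a * a) * v₁ * star (rcut (ε / 2) (a * a) * v₁) +
          cut (5 * ε / 8) (a * a) * e' * star (cut (5 * ε / 8) (a * a) * e'))) := by
  sorry

end Crest.Agent.R110S
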