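import Crest.Agent.R110S.CutoffA

/-!
# R110 piece CutoffB (`good_step`)

Apply `good_side` to both sides: `a v = a v₁ m₁ + a v₂ m₂`, `b w = b w₁ m₁' + b w₂ m₂'`;
`star v * (a * z * b) * w = (a v)⋆ z (b w) = Σ m_i⋆ ((a v_i)⋆ z (b w_j)) m_j'`, each term `≤ (2/τ) (ε τ/16)`,
four terms: `≤ ε/2`.
-/

set_option autoImplicit false

namespace Crest.Agent.R110S

universe u

variable {A : Type u} [CStarAlgebra A] [PartialOrder A] [StarOrderedRing A] {I : Set A}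

theorem good_step (hI : PId A I) {a b z : A} (ha : 0 ≤ a) (haI : a ∈ I) (ha1 : ‖a‖ ≤ 1)
    (hb : 0 ≤ b) (hbI : b ∈ I) (hb1 : ‖b‖ ≤ 1)
    {ε τ : ℝ} (hε : 0 < ε) (hε1 : ε ≤ 1) (hτ : 0 < τ) {v₁ v₂ w₁ w₂ : A}
    (h11 : ‖star (a * v₁) * z * (b * w₁)‖ ≤ ε * τ / 16)
    (h12 : ‖star (a * v₁) * z * (b * w₂)‖ ≤ ε * τ / 16)
    (h21 : ‖star (a * v₂) * z * (b * w₁)‖ ≤ ε * τ / 16)
    (h22 : ‖star (a * v₂) * z * (b * w₂)‖ ≤ ε * τ / 16)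
    (hV : Dom (cut ε (a * a)) (cut τ (a * v₁ * star (a * v₁) + a * v₂ * star (a * v₂))))
    (hW : Dom (cut ε (b * b)) (cut τ (b * w₁ * star (b * w₁) + b * w₂ * star (b * w₂)))) :
    ∃ v w : A, ‖star v * (a * a) * v - a * a‖ ≤ 2 * ε ∧ ‖star w * (b * b) * w - b * b‖ ≤ 2 * ε ∧
      ‖star v * (a * z * b) * w‖ ≤ ε := by
  sorry

end Crest.Agent.R110S
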