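import Crest.Agent.R110S.CompSetup
import Crest.Agent.R110S.CompD
import Crest.Agent.R110S.CompV
import Crest.Agent.R110S.Cutoff

/-!
# R110 piece CompCore

Notation: `α = a*a`, `β = b*b`, `x₃ = ramp (3ε/8) (ε/2) α`, `a' = rcut (ε/2) α`, `q₀ = cut (5ε/8) α`, `d = rcut b₀ β`.

Piece `comp_V` (columns on the V side).  Given `ŷ := cut (1/4) (W_A)`, its quotient `π : A → D` and `v_D ∈ D` with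
`‖v_D⋆ (a'a') v_D - a'a'‖ < ε/32` in `D`: there are `v₁ e' : A` such that `v̂ = a' v₁` has norm `≤ 3`, `π v̂ = π a' * v_D`,
`0 ≤ e' ≤ 1`, `Dom e' ŷ`, and `V = v̂ v̂⋆ + (q₀ e')(q₀ e')⋆` covers: `Dom (cut ε α) (cut (ε²/256) V)`.
Proof: `v₀` a preimage of `v_D`, `f₁` from `quot_unit` for `a' v₀`, `v₁ = v₀ (1 - f₁)`.
`y₁ = cut (ε/32) (v̂ v̂⋆)`.  `Dom q₀ (y₁ + ŷ)`: `ρ` kills `y₁ + ŷ` (both positive) ⟹ kills both, `ρ = ρ' ∘ π`;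
`‖ρ(v̂⋆v̂)‖ ≤ ε/32`, `v̂⋆v̂ ↦ ρ'(v_D⋆ a'a' v_D)`, so `‖ρ (cut (ε/2) α)‖ ≤ ε/32 + ε/32`, `‖ρ α‖ ≤ ε/2 + ε/16 ≤ 5ε/8`, `ρ q₀ = 0`.
`e'` from `exists_eU` (q = q₀, y₁, y₂ = ŷ, `κ = ε²/1024`).  Coverage: `ρ` kills `cut (ε²/256) V`: `‖ρ V‖ ≤ ε²/256`
⟹ `‖ρ(v̂v̂⋆)‖ ≤ ε/32`, `ρ y₁ = 0`; `‖ρ(q₀ e' e' q₀)‖ ≤ ε²/256`;
`q₀ q₀ = q₀ (1-e') q₀ + q₀ e' (1-e') q₀ + q₀ e' e' q₀` ⟹ `‖ρ q₀‖² ≤ 2 ε²/1024 + ε²/256 ≤ ε²/128 ≤ (ε/8)²`…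
`‖ρ α‖ ≤ 5ε/8 + ‖ρ q₀‖ ≤ ε`.

Piece `comp_core`: assembly (for `‖z‖ ≤ 1`, one `ε ≤ 1`).  τ = ε²/256, κ = ετ/16.
`comp_setup` with `θ = κ/4`; `π : A → D` from `exists_quot` for `ŷ`; `compD` in `D` (`PId.map`, `g ↦ π g`, levels
`ε/8 < 3ε/16 < ε/4`, error `≤ min (ε/32) (κ/2)`): `v_D, w_D, p`.  `comp_V`.  `w₀` a preimage of `w_D`, `ŵ = d w₀`.
`f` from `quot_unit` for the two elements `star v̂ * z * ŵ`, `e' * q₀ * z * ŵ` (error `κ/2`): `π` of the first is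
`v_D⋆ a' z d w_D` (norm `< κ/2`), of the second `0` (`π e' = 0`).
W columns: `y (1-e)` (`y = d r`) and `ŵ (1-f)`.  W coverage: `ρ` kills `cut τ W`, `τ ≤ 1/4`: `‖ρ(W_A)‖ ≤ 1/4`, so `ρ ŷ = 0`,
`ρ = ρ'∘π`, `ρ f = 0`, `‖ρ(ŵ ŵ⋆)‖ ≤ 1/4` so `‖ρ' p‖ ≤ 1/4 + ε/32 < 1`, `ρ' p = 0` (projection), `ρ'(cut (3ε/16) (π g)) = 0`,
`‖ρ g‖ ≤ 3ε/16`, `‖ρ β‖ ≤ ε`.
V coupling with `y(1-e)`: `x₃ a' = a'`, `x₃ q₀ = q₀` (`ramp_mul_rcut`, `ramp_mul_cut`), so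
`star v̂ * z * (y(1-e)) = star v̂ * (x₃ z y (1-e))`, norm `≤ 3θ`.
All columns are in `a A` resp. `b A` by `rcut_factor`, `cut_factor` (`rcut t (a*a) = a * (a * m)`).
Then `good_step`.
-/

set_option autoImplicit false

namespace Crest.Agent.R110S

universe u

variable {A : Type u} [CStarAlgebra A] [PartialOrder A] [StarOrderedRing A] {I : Set A}

theorem comp_core (hI : PId A I) {a b z : A} (ha : 0 ≤ a) (haI : a ∈ I) (ha1 : ‖a‖ ≤ 1)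
    (hb : 0 ≤ b) (hbI : b ∈ I) (hb1 : ‖b‖ ≤ 1) (hz1 : ‖z‖ ≤ 1) (hd : Dom a b)
    {ε : ℝ} (hε : 0 < ε) (hε1 : ε ≤ 1) :
    ∃ v w : A, ‖star v * (a * a) * v - a * a‖ ≤ 2 * ε ∧ ‖star w * (b * b) * w - b * b‖ ≤ 2 * ε ∧
      ‖star v * (a * z * b) * w‖ ≤ ε := by
  sorry

end Crest.Agent.R110S
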