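import Crest.Agent.R110S.CompCore

/-!
# R110: the comparable case `Dom a b → Good a b z` (assembly, no sorry in this file)
-/

set_option autoImplicit false

namespace Crest.Agent.R110S

universe u

variable {A : Type u} [CStarAlgebra A] [PartialOrder A] [StarOrderedRing A] {I : Set A}

/-- the comparable case. -/
theorem comp (hI : PId A I) {a b : A} (ha : 0 ≤ a) (haI : a ∈ I) (ha1 : ‖a‖ ≤ 1)
    (hb : 0 ≤ b) (hbI : b ∈ I) (hb1 : ‖b‖ ≤ 1) (hd : Dom a b) (z : A) : Good a b z := by
  intro ε hε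
  -- scale `z`
  have hn : 0 < ‖z‖ + 1 := by positivity
  set c : ℝ := (‖z‖ + 1)⁻¹ with hc
  have hcpos : 0 < c := inv_pos.mpr hn
  have hc1 : c ≤ 1 := inv_le_one_of_one_le₀ (by linarith [norm_nonneg z])
  have hz : ‖((c : ℂ) • z)‖ ≤ 1 := by
    rw [norm_smul, Complex.norm_real, Real.norm_of_nonneg hcpos.le, hc, inv_mul_le_iff₀ hn]
    linarith
  set η : ℝ := min 1 (c * ε / 4) with hη
  have hηpos : 0 < η := lt_min one_pos (by positivity)
  obtain ⟨v, w, h1, h2, h3⟩ := comp_core hI ha haI ha1 hb hbI hb1 hz hd hηpos (min_le_left _ _)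
  have hη2 : η ≤ c * ε / 4 := min_le_right _ _
  have hcε : c * ε ≤ ε := by nlinarith
  refine ⟨v, w, by linarith, by linarith, ?_⟩
  have h4 : star v * (a * ((c : ℂ) • z) * b) * w = (c : ℂ) • (star v * (a * z * b) * w) := by
    simp only [mul_smul_comm, smul_mul_assoc]
  rw [h4, norm_smul, Complex.norm_real, Real.norm_of_nonneg hcpos.le] at h3
  have h5 : c * ‖star v * (a * z * b) * w‖ < c * ε := by
    have : 0 < c * ε := by positivity
    linarith
  exact lt_of_mul_lt_mul_left h5 hcpos.le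

end Crest.Agent.R110S
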