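import Crest.Agent.R110S.PIdApi
import Crest.Agent.R110S.Ideal

/-!
# R110 piece CutCut (see the docstring)
-/

set_option autoImplicit false

namespace Crest.Agent.R110S

universe u

variable {A : Type u} [CStarAlgebra A] [PartialOrder A] [StarOrderedRing A]

/-- `x ∈ ideal(y)` implies `(x-δ)₊ ∈ ideal((y-b)₊)` for a small `b`.
(`x ∈ gen y`: `‖x - ∑ r_k y s_k‖ ≤ δ/2`; if `π` kills `(y-b)₊` then `‖π y‖ ≤ b`, so
`‖π x‖ ≤ δ/2 + b ∑ ‖r_k‖ ‖s_k‖ ≤ δ`.) -/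
theorem dom_cut_cut {x y : A} (hx : 0 ≤ x) (hy : 0 ≤ y) (h : Dom x y) {δ : ℝ} (hδ : 0 < δ) :
    ∃ b : ℝ, 0 < b ∧ b ≤ δ ∧ Dom (cut δ x) (cut b y) := by
  sorry

end Crest.Agent.R110S
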