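import Crest.Agent.R110S.Compare
import Crest.Agent.R110S.CutCut

/-!
# R110 piece CompSetup: the elements `g`, `y = d r`, `e` and the key domination in quotients killing `cut ¼ W_A`

`α = a*a`, `β = b*b`; levels `δ = ε/8`, `t₁ = ε/16`, `s = ε/8`, `s₁ = 3ε/16`, `t = ε/4`, `t₂ = t + δ = 3ε/8`,
`t₃ = ε/2`.  `b₀ ≤ ε/8` from `dom_cut_cut` : `Dom (cut (ε/8) α) (cut b₀ β)` (`Dom a b` gives `Dom α β`: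
`Dom (a*a) a`, `Dom b (b*b)`).
`g = cut δ (α + cut b₀ β)`, `d = rcut b₀ β`, `d*d = cut b₀ β`.
* `Dom g (d*d)`: if `π (d*d) = 0` then `π (cut δ α) = 0`, `‖π α‖ ≤ δ`, `π g = cut δ (π α) = 0`.
* `r`: `compare` for `x = ramp t₁ s g` and `y = d*d`: `‖r⋆ (d d) r - ramp t₁ s g‖ < 1/4`.
* `x₃ = ramp t₂ t₃ α`, `q = (x₃ z d r)⋆ (x₃ z d r)`, `e = eu (θ²) q`, so `‖x₃ z d r (1-e)‖ ≤ θ`.
* key: let `π : A → D` kill `cut (1/4) (y (1-e) (y (1-e))⋆)`, `y = d r`, and let `ρ : D → B` kill `cut t (π g)`.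
  `g ≥ α + cut b₀ β - δ ≥ α - δ` (`sub_le_cut`), so `‖ρπα‖ ≤ t + δ = t₂`, `ρπx₃ = 0` (`ramp_eq_zero`),
  `ρπ q = 0`, `ρπ e = 0` (`dom_eu`), so `‖ρπ y‖² = ‖ρπ (y (1-e) (y(1-e))⋆)‖ ≤ 1/4`, `‖ρπ(ramp t₁ s g)‖ ≤ 1/4 + 1/4 < 1`,
  `‖ρπ g‖ < s` (`norm_lt_of_ramp`), `ρπ (cut s g) = 0`.
* last item: `‖π g‖ ≤ s₁` ⟹ `‖π (cut b₀ β)‖ ≤ s₁ + δ`, `‖π β‖ ≤ s₁ + δ + b₀ ≤ ε`.
-/

set_option autoImplicit false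

namespace Crest.Agent.R110S

universe u

variable {A : Type u} [CStarAlgebra A] [PartialOrder A] [StarOrderedRing A] {I : Set A}

theorem comp_setup (hI : PId A I) {a b z : A} (ha : 0 ≤ a) (haI : a ∈ I) (ha1 : ‖a‖ ≤ 1)
    (hb : 0 ≤ b) (hbI : b ∈ I) (hb1 : ‖b‖ ≤ 1) (hd : Dom a b)
    {ε θ : ℝ} (hε : 0 < ε) (hε1 : ε ≤ 1) (hθ : 0 < θ) :
    ∃ (b₀ : ℝ) (g r e : A), 0 < b₀ ∧ 0 ≤ g ∧ g ∈ I ∧ 0 ≤ e ∧ e ≤ 1 ∧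
      Dom g (rcut b₀ (b * b) * rcut b₀ (b * b)) ∧
      ‖ramp (3 * ε / 8) (ε / 2) (a * a) * z * (rcut b₀ (b * b) * r) * (1 - e)‖ ≤ θ ∧
      (∀ (D : Type u) [CStarAlgebra D] (π : A →⋆ₐ[ℂ] D),
        π (cut (1 / 4) (rcut b₀ (b * b) * r * (1 - e) * star (rcut b₀ (b * b) * r * (1 - e)))) = 0 →
        Dom (cut (ε / 8) (π g)) (cut (ε / 4) (π g))) ∧
      (∀ (B : Type u) [CStarAlgebra B] (π : A →⋆ₐ[ℂ] B), ‖π g‖ ≤ 3 * ε / 16 → ‖π (b * b)‖ ≤ ε) := by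
  sorry

end Crest.Agent.R110S
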