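import Crest.Agent.R110S.Maj
import Crest.Agent.R110S.PIdApi

/-!
# R110 piece Compare: comparison in a purely infinite ideal, with two orthogonal copies

`x ≤ Y + ε/4`, `Y = ∑_{k<n} t_k⋆ y t_k` (`exists_majorant`), `d` from `approx_of_le`; `copies` of `y`, `2n` of them:
`r_k, r'_k`; `R = ∑ r_k t_k`, `R' = ∑ r'_k t_k`: `R⋆ y R ≈ Y`, `R'⋆ y R' ≈ Y`, `R⋆ y R' ≈ 0`.  Answer `R d`, `R' d`.
-/

set_option autoImplicit false

namespace Crest.Agent.R110S

universe u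

variable {A : Type u} [CStarAlgebra A] [PartialOrder A] [StarOrderedRing A] {I : Set A}

theorem compare (hI : PId A I) {x y : A} (hx : 0 ≤ x) (hy : 0 ≤ y) (hyI : y ∈ I) (h : Dom x y)
    {ε : ℝ} (hε : 0 < ε) :
    ∃ r s : A, ‖star r * y * r - x‖ < ε ∧ ‖star s * y * s - x‖ < ε ∧ ‖star r * y * s‖ < ε := by
  sorry


end Crest.Agent.R110S
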