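import Crest.Agent.R110S.Compare

/-!
# R110 piece CutoffA (`good_side`; below: the sketch for both sides): from columns with small coupling and an absolute threshold to normalised vectors

`V = Σ (a v_i)(a v_i)⋆`, `W = Σ (b w_j)(b w_j)⋆`.  `compare` gives `r` with `‖r⋆ (V-τ)₊ r - (a²-ε)₊‖ < ε`;
put `v' = (V-τ)₊^{1/2} r = V m(V) r`, `m(t) = √(t-τ)₊ / max t τ` (`rcut_factor`), so `v' = a v` with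
`v = Σ v_i (a v_i)⋆ m(V) r`.  Then `v⋆ a² v = r⋆ (V-τ)₊ r`, within `2ε` of `a²`.
Coupling: `v' = V^{1/2} (V^{1/2} m(V) r)` and `‖V^{1/2} m(V) r‖² = ‖r⋆ ((V-τ)₊/max V τ) r‖ ≤ τ⁻¹ ‖r⋆ (V-τ)₊ r‖ ≤ 2/τ`;
`‖V^{1/2} z W^{1/2}‖² = ‖W^{1/2} z⋆ V z W^{1/2}‖ ≤ Σ_{i,j} ‖(a v_i)⋆ z (b w_j)‖² ≤ 4 κ²`, `κ = ε τ/16`.
So `‖v'⋆ z w'‖ ≤ (2/τ) 2 κ = ε/4`.
(One can avoid `V^{1/2}`: `‖v'⋆ z w'‖ = ‖(m(V) r)⋆ V z W (m(W) r')‖` and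
`V = Σ V_i V_i⋆`, `‖V_i⋆ m(V) r‖² ≤ ‖r⋆ m(V) V m(V) r‖ ≤ 2/τ`:
`‖Σ_{ij} (r⋆ m V_i)(V_i⋆ z W_j)(W_j⋆ m r')‖ ≤ 4 · (2/τ) · κ = ε/2`.  This is easier.)
-/

set_option autoImplicit false

namespace Crest.Agent.R110S

universe u

variable {A : Type u} [CStarAlgebra A] [PartialOrder A] [StarOrderedRing A] {I : Set A}

/-- one side of `good_step`. -/
theorem good_side (hI : PId A I) {a : A} (ha : 0 ≤ a) (haI : a ∈ I) (ha1 : ‖a‖ ≤ 1)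
    {ε τ : ℝ} (hε : 0 < ε) (hε1 : ε ≤ 1) (hτ : 0 < τ) {v₁ v₂ : A}
    (hV : Dom (cut ε (a * a)) (cut τ (a * v₁ * star (a * v₁) + a * v₂ * star (a * v₂)))) :
    ∃ v m₁ m₂ : A, a * v = a * v₁ * m₁ + a * v₂ * m₂ ∧ ‖m₁‖ ^ 2 ≤ 2 / τ ∧ ‖m₂‖ ^ 2 ≤ 2 / τ ∧
      ‖star v * (a * a) * v - a * a‖ ≤ 2 * ε := by
  sorry

end Crest.Agent.R110S
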