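import Crest.Agent.R110S.LemAw

/-!
# R110 piece LemA: helper5's one-sided exact case, for a projection `p` on the right

`lemA`.  WLOG `‖c‖ ≤ 1` (divide `c` by `‖c‖ + 1`, `ε` too).  `T = c⋆ a ∈ I`, `p T = T` (`c p = c`).
`T⋆T = a c c⋆ a ≤ a²`.  `w, x` from `lemA_w` with `η` tiny.  `h = T⋆ w w⋆ T`.  `δ` small (`δ ≤ ε²/4`).
`X = a² - δ⁻¹ h` selfadjoint, `X₂ = X₊ = cfc (max · 0) X ∈ I`.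
`Dom (cut ρ (a²)) X₂`: if `π X₂ = 0`: `π a² ≤ δ⁻¹ π h`; `‖π(T⋆T)‖ ≤ ‖π(x⋆T⋆T x)‖ + η`, `x⋆T⋆Tx ≤ x⋆a²x`, so
`‖π(x⋆T⋆Tx)‖ ≤ δ⁻¹ ‖π(x⋆ h x)‖ = δ⁻¹ ‖π(w⋆ T x)‖² ≤ δ⁻¹ η²`; `‖π h‖ = ‖w⋆T‖² ≤ ‖p w‖² ‖π(T⋆T)‖ ≤ 2 (η + η²/δ)`
(`w⋆ T = (p w)⋆ T`, `‖p w‖² = ‖w⋆ p w‖ ≤ 2`); so `‖π a²‖ ≤ 2 δ⁻¹ (η + η²/δ) ≤ ρ`.
`Dom (cut ρ a²) (X₂^{1/2} a² X₂^{1/2})` since `X₂² ≤ X₂^{1/2} a² X₂^{1/2}` (`X₂^{1/2} X X₂^{1/2} = X₂²`).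
`compare`: `y'` with `‖y'⋆ X₂^{1/2} a² X₂^{1/2} y' - cut ρ (a²)‖ < ρ`; `v = X₂^{1/2} y'`.
`‖v⋆ a c w‖² = ‖v⋆ a c w w⋆ c⋆ a v‖ = ‖v⋆ h v‖ ≤ δ ‖v⋆ a² v‖` since `v⋆ (a² - δ⁻¹ h) v = y'⋆ X₂² y' ≥ 0`.
-/

set_option autoImplicit false

namespace Crest.Agent.R110S

universe u

variable {A : Type u} [CStarAlgebra A] [PartialOrder A] [StarOrderedRing A] {I : Set A}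

theorem lemA (hI : PId A I) {a p c : A} (ha : 0 ≤ a) (haI : a ∈ I) (ha1 : ‖a‖ ≤ 1)
    (hp : IsSelfAdjoint p) (hpp : p * p = p) (hpI : p ∈ I) (hc : c * p = c) {ε : ℝ} (hε : 0 < ε) :
    ∃ v w : A, ‖star v * (a * a) * v - a * a‖ < ε ∧ ‖star w * p * w - p‖ < ε ∧
      ‖star v * a * c * w‖ < ε := by
  sorry

end Crest.Agent.R110S
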