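import Crest.Agent.R110S.Compare

/-!
# R110 piece LemAw: first half of helper5's one-sided exact case

`lemA_w`.  `g = T⋆T ∈ I`, `x₁, x₂` from `PInf g` with tiny error `κ` (`hI.pinf' `), `r_i = T x_i ∈ pA`.
`z₀ = φ(r₁ r₁⋆)`, `φ(t) = max (1 - t/σ) 0` (σ small, e.g. `η²/4`), `0 ≤ z₀ ≤ 1`, `1 - z₀ ≤ r₁ r₁⋆/σ`, commutes with `p`.
`Dom p (p z₀ p)`: if `π (p z₀ p) = 0` then `π (z₀^{1/2} p) = 0`, so `π(z₀) π(p) = 0`, `π r₂ = π(p r₂)`,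
`π r₂ = π(z₀ p r₂) + π((1 - z₀) r₂) = π((1-z₀) r₂)` and `‖(1-z₀) r₂‖² ≤ ‖r₂⋆ (1-z₀) r₂‖ ≤ ‖r₁⋆ r₂‖²/σ ≤ κ²/σ`; so
`‖π g‖ ≤ κ²/σ + κ`, `‖π(r₁r₁⋆)‖ ≤ κ²/σ + 2κ < σ`, so `π z₀` is invertible, `π p = 0`.
`compare` for `x = p`, `y = p z₀ p ∈ I`: `y₀` with `‖y₀⋆ p z₀ p y₀ - p‖ < η`; `w = z₀^{1/2} p y₀`:
`w⋆ p w = y₀⋆ p z₀ p y₀` (z₀ commutes with p), and
`(w⋆ r₁)(w⋆ r₁)⋆ = w⋆ r₁ r₁⋆ w = y₀⋆ p (z₀ r₁ r₁⋆) p y₀ ≤ σ y₀⋆ p z₀ p y₀` (`t φ(t) ≤ σ φ(t)`), norm `≤ σ (1+η)`.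
Answer: this `w` and `x = x₁`.   (The case `0 < η ≤ 1` suffices.)

-/

set_option autoImplicit false

namespace Crest.Agent.R110S

universe u

variable {A : Type u} [CStarAlgebra A] [PartialOrder A] [StarOrderedRing A] {I : Set A}

theorem lemA_w (hI : PId A I) {T p : A} (hT : p * T = T) (hTI : T ∈ I) (hp : IsSelfAdjoint p)
    (hpp : p * p = p) (hpI : p ∈ I) {η : ℝ} (hη : 0 < η) :
    ∃ w x : A, ‖star w * p * w - p‖ ≤ η ∧ ‖star x * (star T * T) * x - star T * T‖ ≤ η ∧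
      ‖star w * T * x‖ ≤ η := by
  sorry

end Crest.Agent.R110S
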