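import Crest.Agent.R110S.BasicCfc
import Crest.Agent.R110S.Ideal

/-!
# R110 piece MajA

`exists_majorant`: `x ∈ gen y` (`dom_iff_mem_gen`, definition of `gen`, `Metric.mem_closure_iff`):
`‖x - ∑ r_k y s_k‖ ≤ ε`; taking the selfadjoint part and
`r y s + s⋆ y r⋆ ≤ r y r⋆ + s⋆ y s` (because `(r⋆ - s)⋆ y (r⋆ - s) ≥ 0`):
`x ≤ ½ ∑ (r_k y r_k⋆ + s_k⋆ y s_k) + ε`.  (`2n` elements: `r_k⋆/√2`, `s_k/√2`; use `Fin n ⊕ Fin n` or `Fin.append`,
or first prove it for a `Fintype` index and transfer.)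
-/

set_option autoImplicit false

namespace Crest.Agent.R110S

universe u

variable {A : Type u} [CStarAlgebra A]

theorem exists_majorant [PartialOrder A] [StarOrderedRing A] {x y : A} (hx : 0 ≤ x) (hy : 0 ≤ y)
    (h : Dom x y) {ε : ℝ} (hε : 0 < ε) :
    ∃ (n : ℕ) (t : Fin n → A), x ≤ ∑ k, star (t k) * y * t k + algebraMap ℝ A ε := by
  sorry


end Crest.Agent.R110S
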